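import Vale.Agent.P157.Full.Sphere.Statements
import Vale.Agent.P157.Parisi.Sphere.Perturb.Identity
import Vale.Agent.P157.Parisi.Cavity.Pert

/-!
The perturbation part of the tangential derivative is of the order of the squared strength.
-/

noncomputable section

open MeasureTheory ProbabilityTheory
open scoped BigOperators

namespace Vale.Agent.P157.Parisi.Full.Spherical.PatParts

open Sphere (Pts Conf)
open Sphere.Perturb (expRep)
open Vale.Agent.P168.Limit (rav)

variable {N L : ℕ} {P : Pts N} {f : ℝ → ℝ} {s μ : ℝ} {x : Fin L → ℝ}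

/-- The coefficient of one coordinate of the perturbation in the tangential derivative. -/
def pertObs (s : ℝ) (x : Fin L → ℝ) (k : ℕ) (c : PertIdx N L) (σ : Fin 2 → Conf P) : ℝ :=
  Sphere.overlap (σ 0) (σ 1) ^ k * (s * x c.1 * (1 / 2) ^ (c.1.val + 1) *
    ∑ i, (Sphere.unitVec (σ 1) (c.2 i) - Sphere.overlap (σ 0) (σ 1) * Sphere.unitVec (σ 0) (c.2 i)) *
      ∏ j ∈ Finset.univ.erase i, Sphere.unitVec (σ 0) (c.2 j))

/-- The perturbation part. -/
def pertPart (P : Pts N) (f : ℝ → ℝ) (s μ : ℝ) (x : Fin L → ℝ) (k : ℕ) : ℝ :=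
  ∫ d, ∑ c : PertIdx N L, d.2.2 c * rav 2 (Sphere.totalH (P := P) f s x d) (pertObs s x k c)
    ∂disLaw N L μ

/-- The covariance of that coefficient with a configuration. -/
lemma abs_pert_cov_le (hx : ∀ i, x i ∈ Set.Icc (1 : ℝ) 2) (k : ℕ) (σ : Fin 2 → Conf P)
    (ρ : Conf P) :
    |∑ c : PertIdx N L, s * x c.1 * (pertObs s x k c σ * Sphere.Perturb.feat c ρ)| ≤ 8 * s ^ 2 := by
  classical
  set R := Sphere.overlap (σ 0) (σ 1) with hR
  have hR1 : |R| ≤ 1 := Sphere.Perturb.abs_overlap_le _ _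
  set e : Fin N → ℝ := fun l => Sphere.unitVec (σ 1) l - R * Sphere.unitVec (σ 0) l with he
  have heρ : |∑ l, e l * Sphere.unitVec ρ l| ≤ 2 := by
    have : ∑ l, e l * Sphere.unitVec ρ l = Sphere.overlap (σ 1) ρ - R * Sphere.overlap (σ 0) ρ := by
      simp only [he, sub_mul, Finset.sum_sub_distrib, mul_assoc, ← Finset.mul_sum]; rfl
    rw [this]
    refine (abs_sub _ _).trans ?_
    rw [abs_mul]
    have := mul_le_one₀ hR1 (abs_nonneg _) (Sphere.Perturb.abs_overlap_le (σ 0) ρ)
    linarith [Sphere.Perturb.abs_overlap_le (σ 1) ρ]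
  have hone : ∀ (p : Fin L) (i : Fin (p.val + 1)),
      |∑ v : Fin (p.val + 1) → Fin N, (e (v i) * ∏ j ∈ Finset.univ.erase i, Sphere.unitVec (σ 0) (v j)) *
        ∏ j, Sphere.unitVec ρ (v j)| ≤ 2 := by
    intro p i
    set h : Fin (p.val + 1) → Fin N → ℝ := fun j l =>
      (if j = i then e l else Sphere.unitVec (σ 0) l) * Sphere.unitVec ρ l with hh
    have e1 : ∀ v : Fin (p.val + 1) → Fin N,
        (e (v i) * ∏ j ∈ Finset.univ.erase i, Sphere.unitVec (σ 0) (v j)) * ∏ j, Sphere.unitVec ρ (v j) =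
          ∏ j, h j (v j) := by
      intro v
      simp only [hh]
      rw [Finset.prod_mul_distrib, ← Finset.mul_prod_erase _
        (fun j => if j = i then e (v j) else Sphere.unitVec (σ 0) (v j)) (Finset.mem_univ i), if_pos rfl,
        Finset.prod_congr rfl fun j hj => if_neg (Finset.ne_of_mem_erase hj)]
    simp only [e1]
    rw [← Fintype.prod_sum, Finset.abs_prod, ← Finset.mul_prod_erase _ _ (Finset.mem_univ i)]
    have h1 : |∑ l, h i l| ≤ 2 := by simpa [hh] using heρ
    refine (mul_le_of_le_one_right (abs_nonneg _) (Finset.prod_le_one (fun j _ => abs_nonneg _)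
      fun j hj => ?_)).trans h1
    simp only [hh, if_neg (Finset.ne_of_mem_erase hj)]
    exact Sphere.Perturb.abs_overlap_le (σ 0) ρ
  have hsum : ∑ c : PertIdx N L, s * x c.1 * (pertObs s x k c σ * Sphere.Perturb.feat c ρ) =
      ∑ p : Fin L, (R ^ k * (s ^ 2 * x p ^ 2 * (1 / 4) ^ (p.val + 1))) *
        ∑ i : Fin (p.val + 1), ∑ v : Fin (p.val + 1) → Fin N,
          (e (v i) * ∏ j ∈ Finset.univ.erase i, Sphere.unitVec (σ 0) (v j)) *
            ∏ j, Sphere.unitVec ρ (v j) := by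
    rw [Fintype.sum_sigma]
    refine Finset.sum_congr rfl fun p _ => ?_
    rw [Finset.sum_comm, Finset.mul_sum]
    refine Finset.sum_congr rfl fun v _ => ?_
    simp only [pertObs, Sphere.Perturb.feat, ← hR, he, Finset.mul_sum, Finset.sum_mul]
    refine Finset.sum_congr rfl fun i _ => ?_
    rw [show (1 / 4 : ℝ) ^ (p.val + 1) = (1 / 2) ^ (p.val + 1) * (1 / 2) ^ (p.val + 1) by
      rw [← mul_pow]; norm_num]
    ring
  rw [hsum]
  refine (Finset.abs_sum_le_sum_abs _ _).trans ?_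
  calc _ ≤ ∑ p : Fin L, 8 * s ^ 2 * (1 / 2) ^ (p.val + 1) := by
        refine Finset.sum_le_sum fun p _ => ?_
        rw [abs_mul, abs_mul, abs_pow, abs_of_nonneg (show
          (0 : ℝ) ≤ s ^ 2 * x p ^ 2 * (1 / 4) ^ (p.val + 1) by positivity)]
        refine (mul_le_mul (mul_le_of_le_one_left (by positivity)
          (pow_le_one₀ (abs_nonneg _) hR1)) ((Finset.abs_sum_le_sum_abs _ _).trans
            ((Finset.sum_le_card_nsmul _ _ 2 fun i _ => hone p i).trans_eq
              (show _ = ((p.val : ℝ) + 1) * 2 by simp)))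
          (abs_nonneg _) (by positivity)).trans ?_
        have hx2 : x p ^ 2 ≤ 4 := by nlinarith [(hx p).1, (hx p).2]
        have h2 : ((p.val : ℝ) + 1) ≤ 2 ^ (p.val + 1) := by
          exact_mod_cast (Nat.lt_two_pow_self (n := p.val + 1)).le
        calc s ^ 2 * x p ^ 2 * (1 / 4) ^ (p.val + 1) * (((p.val : ℝ) + 1) * 2)
            ≤ s ^ 2 * 4 * (1 / 4) ^ (p.val + 1) * (2 ^ (p.val + 1) * 2) := by gcongr
          _ = 8 * s ^ 2 * ((1 / 4) ^ (p.val + 1) * 2 ^ (p.val + 1)) := by ring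
          _ = _ := by rw [← mul_pow]; norm_num
    _ ≤ _ := by
        rw [← Finset.mul_sum]
        exact mul_le_of_le_one_right (by positivity) (Cavity.sum_half_pow_le L)

/-- The bound on the perturbation part. -/
theorem abs_pertPart_le (hf : Continuous f) (hx : ∀ i, x i ∈ Set.Icc (1 : ℝ) 2) (k : ℕ) :
    |pertPart P f s μ x k| ≤ 32 * s ^ 2 := by
  unfold pertPart
  rw [integral_finsetSum _ fun c _ => Sphere.Perturb.integrable_coord_rav hf c 2 _]
  simp only [Sphere.Perturb.ibp_coord hf, mul_sub, Finset.mul_sum, Finset.sum_sub_distrib]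
  rw [Finset.sum_comm]
  simp only [← Sphere.Perturb.expRep_const_mul]
  have h2 : |∑ q : Fin 2, ∑ c : PertIdx N L, expRep (pts := P) f s μ x 2
      (fun σ => s * x c.1 * (pertObs s x k c σ * Sphere.Perturb.feat c (σ q)))| ≤ 2 * (8 * s ^ 2) := by
    refine (Finset.abs_sum_le_sum_abs _ _).trans ((Finset.sum_le_card_nsmul _ _ (8 * s ^ 2) fun q _ => ?_).trans_eq
      (by simp))
    rw [← Sphere.Perturb.expRep_sum hf]
    exact Sphere.Perturb.abs_expRep_le _ fun σ => abs_pert_cov_le hx k σ _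
  have h3 : |∑ c : PertIdx N L, expRep (pts := P) f s μ x 3 (fun σ : Fin 3 → Conf P =>
      s * x c.1 * ((2 : ℕ) * (pertObs s x k c (fun l : Fin 2 => σ l.castSucc) *
        Sphere.Perturb.feat c (σ (Fin.last 2)))))| ≤ 2 * (8 * s ^ 2) := by
    rw [← Sphere.Perturb.expRep_sum hf]
    refine Sphere.Perturb.abs_expRep_le _ fun σ => ?_
    simp only [mul_left_comm _ ((2 : ℕ) : ℝ), ← Finset.mul_sum]
    rw [abs_mul, Nat.cast_ofNat, abs_two]
    exact mul_le_mul_of_nonneg_left (abs_pert_cov_le hx k _ _) two_pos.le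
  refine (abs_sub _ _).trans ((add_le_add h2 h3).trans_eq (by ring))

end Vale.Agent.P157.Parisi.Full.Spherical.PatParts
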