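import Vale.Agent.P157.Full.Sphere.Statements
import Vale.Agent.P157.Parisi.Sphere.Site.Kappa
import Vale.Agent.P157.Parisi.Site.Kappa

/-!
The pattern part of the tangential derivative, by Gaussian integration by parts in a fresh pattern.
-/

noncomputable section

open MeasureTheory ProbabilityTheory
open scoped BigOperators

namespace Vale.Agent.P157.Parisi.Full.Spherical.PatParts

open Sphere (Pts Conf)
open Vale.Agent.P157.Parisi.Site (measurable_dot_left dot_update)
open Sphere.Site (gib gib_nonneg sum_gib sum_exp_pos rep tiltW tiltW_le_one tiltW_nonneg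
  measurable_tiltW abs_rep_le measurable_rep)

variable {N : ℕ} {P : Pts N} {f : ℝ → ℝ} {A : ℝ}

lemma rep_two (E : Conf P → ℝ) (Φ : (Fin 2 → Conf P) → ℝ) :
    rep 2 E Φ = ∑ σ, ∑ τ, gib E σ * gib E τ * Φ ![σ, τ] := by
  rw [rep, ← (piFinTwoEquiv fun _ => Conf P).symm.sum_comp, Fintype.sum_prod_type]
  refine Finset.sum_congr rfl fun σ _ => Finset.sum_congr rfl fun τ _ => ?_
  have e : (piFinTwoEquiv fun _ => Conf P).symm (σ, τ) = ![σ, τ] := by
    funext i; fin_cases i <;> rfl
  rw [e, Fin.prod_univ_two]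
  simp

lemma rep_three (E : Conf P → ℝ) (Φ : (Fin 3 → Conf P) → ℝ) :
    rep 3 E Φ = ∑ σ, ∑ τ, ∑ ρ, gib E σ * gib E τ * gib E ρ * Φ ![σ, τ, ρ] := by
  rw [rep, ← (Fin.consEquiv fun _ : Fin 3 => Conf P).sum_comp, Fintype.sum_prod_type]
  refine Finset.sum_congr rfl fun σ _ => ?_
  rw [← (piFinTwoEquiv fun _ => Conf P).symm.sum_comp, Fintype.sum_prod_type]
  refine Finset.sum_congr rfl fun τ _ => Finset.sum_congr rfl fun ρ _ => ?_
  have e : Fin.consEquiv (fun _ : Fin 3 => Conf P)
      (σ, (piFinTwoEquiv fun _ => Conf P).symm (τ, ρ)) = ![σ, τ, ρ] := by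
    funext i; fin_cases i <;> rfl
  rw [e, Fin.prod_univ_three]
  simp

/-- The energy with one more pattern. -/
def addPat (f : ℝ → ℝ) (E : Conf P → ℝ) (g : Fin N → ℝ) (σ : Conf P) : ℝ :=
  E σ + f (dot g (Sphere.unitVec σ))

lemma gib_addPat (E : Conf P → ℝ) (g : Fin N → ℝ) (σ : Conf P) :
    gib (addPat f E g) σ = tiltW E f g σ := rfl

/-- The derivative along the tangential part, for one pattern. -/
def tangObs (f : ℝ → ℝ) (k : ℕ) (g : Fin N → ℝ) (σ : Fin 2 → Conf P) : ℝ :=
  Sphere.overlap (σ 0) (σ 1) ^ k * (deriv f (dot g (Sphere.unitVec (σ 0))) *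
    (dot g (Sphere.unitVec (σ 1)) - Sphere.overlap (σ 0) (σ 1) * dot g (Sphere.unitVec (σ 0))))

/-- The observable of the bracket with two replicas. -/
def obsTwo (f : ℝ → ℝ) (k : ℕ) (g : Fin N → ℝ) (σ : Fin 2 → Conf P) : ℝ :=
  pairFun k (Sphere.overlaps σ) * (deriv f (dot g (Sphere.unitVec (σ 0))) * deriv f (dot g (Sphere.unitVec (σ 1))))

/-- The observable of the bracket with three replicas. -/
def obsThree (f : ℝ → ℝ) (k : ℕ) (g : Fin N → ℝ) (σ : Fin 3 → Conf P) : ℝ :=
  tripleFun k (Sphere.overlaps σ) * (deriv f (dot g (Sphere.unitVec (σ 0))) * deriv f (dot g (Sphere.unitVec (σ 2))))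

/-- The pattern mean with the derivative. -/
def tangMean (f : ℝ → ℝ) (k : ℕ) (E : Conf P → ℝ) : ℝ :=
  ∫ g, rep 2 (addPat f E g) (tangObs f k g) ∂gam (Fin N)

lemma overlap_self_eq (hN : 0 < N) (σ : Conf P) : Sphere.overlap σ σ = 1 := by
  rw [← P.norm_one hN σ]
  show ∑ i, Sphere.unitVec σ i * Sphere.unitVec σ i = ∑ i, Sphere.unitVec σ i ^ 2
  exact Finset.sum_congr rfl fun i _ => (sq (Sphere.unitVec σ i)).symm

lemma abs_obsTwo_le (hf : Smooth f A) (k : ℕ) (g : Fin N → ℝ) (σ : Fin 2 → Conf P) :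
    |obsTwo f k g σ| ≤ 2 * (A * A) := by
  have hR := Sphere.Site.abs_overlap_le (σ 0) (σ 1)
  have h1 : |pairFun k (Sphere.overlaps σ)| ≤ 1 * 2 := by
    rw [pairFun, Sphere.overlaps, abs_mul, abs_pow]
    refine mul_le_mul (pow_le_one₀ (abs_nonneg _) hR) ?_ (abs_nonneg _) zero_le_one
    refine (abs_sub _ _).trans ?_
    have h2 : |Sphere.overlap (σ 0) (σ 1)| ^ 2 ≤ 1 := pow_le_one₀ (abs_nonneg _) hR
    rw [← abs_pow] at h2
    rw [abs_one]
    linarith
  rw [obsTwo, abs_mul, abs_mul]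
  exact mul_le_mul (h1.trans (by norm_num)) (mul_le_mul (hf.b1 _) (hf.b1 _) (abs_nonneg _)
    ((abs_nonneg _).trans (hf.b1 0))) (by positivity) (by norm_num)

lemma abs_obsThree_le (hf : Smooth f A) (k : ℕ) (g : Fin N → ℝ) (σ : Fin 3 → Conf P) :
    |obsThree f k g σ| ≤ 2 * (A * A) := by
  have h1 : |tripleFun k (Sphere.overlaps σ)| ≤ 1 * 2 := by
    rw [tripleFun, Sphere.overlaps, abs_mul, abs_pow]
    refine mul_le_mul (pow_le_one₀ (abs_nonneg _) (Sphere.Site.abs_overlap_le _ _)) ?_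
      (abs_nonneg _) zero_le_one
    refine (abs_sub _ _).trans ?_
    simp only [Sphere.overlaps]
    rw [abs_mul]
    have h2 := mul_le_one₀ (Sphere.Site.abs_overlap_le (σ 0) (σ 1)) (abs_nonneg _)
      (Sphere.Site.abs_overlap_le (σ 0) (σ 2))
    linarith [Sphere.Site.abs_overlap_le (σ 1) (σ 2)]
  rw [obsThree, abs_mul, abs_mul]
  exact mul_le_mul (h1.trans (by norm_num)) (mul_le_mul (hf.b1 _) (hf.b1 _) (abs_nonneg _)
    ((abs_nonneg _).trans (hf.b1 0))) (by positivity) (by norm_num)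

lemma measurable_obsTwo (hf : Smooth f A) (k : ℕ) (σ : Fin 2 → Conf P) :
    Measurable fun g : Fin N → ℝ => obsTwo f k g σ :=
  ((hf.d1.continuous.measurable.comp (measurable_dot_left _)).mul
    (hf.d1.continuous.measurable.comp (measurable_dot_left _))).const_mul _

lemma measurable_obsThree (hf : Smooth f A) (k : ℕ) (σ : Fin 3 → Conf P) :
    Measurable fun g : Fin N → ℝ => obsThree f k g σ :=
  ((hf.d1.continuous.measurable.comp (measurable_dot_left _)).mul
    (hf.d1.continuous.measurable.comp (measurable_dot_left _))).const_mul _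

lemma abs_tangObs_le (hf : Smooth f A) (k : ℕ) (g : Fin N → ℝ) (σ : Fin 2 → Conf P) :
    |tangObs f k g σ| ≤ 2 * A * coordAbs g := by
  have hA : 0 ≤ A := (abs_nonneg _).trans (hf.b1 0)
  have hd : ∀ τ : Conf P, |dot g (Sphere.unitVec τ)| ≤ coordAbs g := fun τ =>
    (abs_dot_le_coordAbs (fun i => Sphere.Site.abs_unitVec_le τ i) g).trans_eq (mul_one _)
  have h1 : |dot g (Sphere.unitVec (σ 1)) - Sphere.overlap (σ 0) (σ 1) * dot g (Sphere.unitVec (σ 0))| ≤
      2 * coordAbs g := by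
    refine (abs_sub _ _).trans ?_
    rw [abs_mul]
    have := mul_le_mul (Sphere.Site.abs_overlap_le (σ 0) (σ 1)) (hd (σ 0)) (abs_nonneg _)
      zero_le_one
    linarith [hd (σ 1)]
  rw [tangObs, abs_mul, abs_pow, abs_mul]
  refine (mul_le_of_le_one_left (by positivity)
    (pow_le_one₀ (abs_nonneg _) (Sphere.Site.abs_overlap_le _ _))).trans ?_
  exact (mul_le_mul (hf.b1 _) h1 (abs_nonneg _) hA).trans_eq (by ring)

lemma measurable_tangObs (hf : Smooth f A) (k : ℕ) (σ : Fin 2 → Conf P) :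
    Measurable fun g : Fin N → ℝ => tangObs f k g σ :=
  ((hf.d1.continuous.measurable.comp (measurable_dot_left _)).mul
    ((measurable_dot_left _).sub ((measurable_dot_left _).const_mul _))).const_mul _

/-- Integration by parts for one pair of configurations. -/
lemma pair_ibp (hf : Smooth f A) (hN : 0 < N) (k : ℕ) (E : Conf P → ℝ) (σ τ : Conf P) :
    ∫ g, tiltW E f g σ * tiltW E f g τ * tangObs f k g ![σ, τ] ∂gam (Fin N) =
      ∫ g, (tiltW E f g σ * tiltW E f g τ * obsTwo f k g ![σ, τ] -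
        2 * ∑ ρ, tiltW E f g σ * tiltW E f g τ * tiltW E f g ρ * obsThree f k g ![σ, τ, ρ])
        ∂gam (Fin N) := by
  have hfc := hf.continuous
  have hA0 : 0 ≤ A := (abs_nonneg _).trans (hf.b0 0)
  set S : (Fin N → ℝ) → Conf P → ℝ := fun g σ => dot g (Sphere.unitVec σ) with hS
  set p : (Fin N → ℝ) → Conf P → ℝ := fun g σ => tiltW E f g σ with hp
  have hp0 : ∀ g σ, 0 ≤ p g σ := fun g σ => gib_nonneg _ _
  have hp1 : ∀ g, ∑ σ, p g σ = 1 := fun g => sum_gib _
  have hpb : ∀ g σ, p g σ ≤ 1 := fun g σ => tiltW_le_one E g σ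
  have hpm : ∀ σ, Measurable fun g => p g σ := measurable_tiltW hfc E
  have hSm : ∀ σ : Conf P, Measurable fun g : Fin N → ℝ => S g σ := fun σ => measurable_dot_left _
  set M : (Fin N → ℝ) → (Fin N) → ℝ := fun g i => ∑ ρ, p g ρ * (deriv f (S g ρ) * Sphere.unitVec ρ i)
    with hM
  have hMb : ∀ g i, |M g i| ≤ A := fun g i => by
    refine (Finset.abs_sum_le_sum_abs _ _).trans ((Finset.sum_le_sum fun ρ _ => ?_).trans_eq
      (show ∑ ρ, p g ρ * A = A by rw [← Finset.sum_mul, hp1, one_mul]))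
    rw [abs_mul, abs_of_nonneg (hp0 g ρ), abs_mul]
    exact mul_le_mul_of_nonneg_left ((mul_le_mul (hf.b1 _) (Sphere.Site.abs_unitVec_le ρ i)
      (abs_nonneg _) hA0).trans_eq (mul_one A)) (hp0 g ρ)
  have hd1 : ∀ σ : Conf P, Measurable fun g : Fin N → ℝ => deriv f (S g σ) := fun σ =>
    hf.d1.continuous.measurable.comp (hSm σ)
  set R := Sphere.overlap σ τ with hR
  set e : Fin N → ℝ := fun i => Sphere.unitVec τ i - R * Sphere.unitVec σ i with he
  set G : (Fin N → ℝ) → ℝ := fun g => p g σ * p g τ * deriv f (S g σ) with hG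
  set G' : Fin N → (Fin N → ℝ) → ℝ := fun i g => p g σ * p g τ *
    (deriv f (S g σ) * (deriv f (S g σ) * Sphere.unitVec σ i + deriv f (S g τ) * Sphere.unitVec τ i - 2 * M g i) +
      deriv (deriv f) (S g σ) * Sphere.unitVec σ i) with hG'
  have hGb : ∀ g, |G g| ≤ A := fun g => by
    rw [hG, abs_mul, abs_mul, abs_of_nonneg (hp0 g σ), abs_of_nonneg (hp0 g τ)]
    exact (mul_le_mul (mul_le_one₀ (hpb g σ) (hp0 g τ) (hpb g τ)) (hf.b1 _) (abs_nonneg _)
      zero_le_one).trans_eq (one_mul A)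
  have hG'b : ∀ i g, |G' i g| ≤ 4 * (A * A) + A := fun i g => by
    rw [hG', abs_mul, abs_mul, abs_of_nonneg (hp0 g σ), abs_of_nonneg (hp0 g τ)]
    refine (mul_le_of_le_one_left (abs_nonneg _) (mul_le_one₀ (hpb g σ) (hp0 g τ) (hpb g τ))).trans ?_
    refine (abs_add_le _ _).trans (add_le_add ?_ ?_)
    · rw [abs_mul]
      refine (mul_le_mul (hf.b1 _) ?_ (abs_nonneg _) hA0).trans_eq
        (show A * (A + A + 2 * A) = 4 * (A * A) by ring)
      refine (abs_sub _ _).trans (add_le_add ((abs_add_le _ _).trans (add_le_add ?_ ?_)) ?_)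
      · rw [abs_mul]; exact (mul_le_mul (hf.b1 _) (Sphere.Site.abs_unitVec_le σ i)
          (abs_nonneg _) hA0).trans_eq (mul_one A)
      · rw [abs_mul]; exact (mul_le_mul (hf.b1 _) (Sphere.Site.abs_unitVec_le τ i)
          (abs_nonneg _) hA0).trans_eq (mul_one A)
      · rw [abs_mul, abs_two]; linarith [hMb g i]
    · rw [abs_mul]; exact (mul_le_mul (hf.b2 _) (Sphere.Site.abs_unitVec_le σ i)
        (abs_nonneg _) hA0).trans_eq (mul_one A)
  have hMm : ∀ i, Measurable fun g => M g i := fun i =>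
    Finset.measurable_sum _ fun ρ _ => (hpm ρ).mul ((hd1 ρ).mul_const _)
  have h := integral_dot_mul e (G := G) (G' := G') (A := A) (A' := 4 * (A * A) + A)
    (((hpm σ).mul (hpm τ)).mul (hd1 σ))
    (fun i => ((hpm σ).mul (hpm τ)).mul (((hd1 σ).mul ((((hd1 σ).mul_const _).add
      ((hd1 τ).mul_const _)).sub ((hMm i).const_mul 2))).add
        ((hf.d2.continuous.measurable.comp (hSm σ)).mul_const _)))
    hGb hG'b (fun g i => by
      have hS' : ∀ ρ : Conf P, HasDerivAt
          (fun t => dot (Function.update g i t) (Sphere.unitVec ρ)) (Sphere.unitVec ρ i) (g i) := fun ρ => by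
        simp only [dot_update]
        simpa using (((hasDerivAt_id (g i)).sub_const (g i)).mul_const (Sphere.unitVec ρ i)).const_add
          (dot g (Sphere.unitVec ρ))
      have hu : Function.update g i (g i) = g := Function.update_eq_self i g
      have hex : ∀ ρ : Conf P, HasDerivAt
          (fun t => Real.exp (E ρ + f (dot (Function.update g i t) (Sphere.unitVec ρ))))
          (Real.exp (E ρ + f (S g ρ)) * (deriv f (S g ρ) * Sphere.unitVec ρ i)) (g i) := fun ρ => by
        have h := ((hf.d0 _).hasDerivAt.comp (g i) (hS' ρ)).const_add (E ρ)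
        simpa [hu, S, Function.comp_def] using h.exp
      have hsum := HasDerivAt.fun_sum (u := Finset.univ) fun ρ (_ : ρ ∈ Finset.univ) => hex ρ
      have hd := (((hex σ).div hsum (sum_exp_pos _).ne').mul
        ((hex τ).div hsum (sum_exp_pos _).ne')).mul ((hf.d1 _).hasDerivAt.comp (g i) (hS' σ))
      refine HasDerivAt.congr_deriv hd ?_
      have hne := (sum_exp_pos fun ρ => E ρ + f (S g ρ)).ne'
      simp only [hG', p, tiltW, gib, hu, S, M, Pi.div_apply, Pi.mul_apply,
        Function.comp_apply] at hne ⊢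
      simp only [div_mul_eq_mul_div, ← Finset.sum_div]
      field_simp
      ring)
  have hL : ∀ g, tiltW E f g σ * tiltW E f g τ * tangObs f k g ![σ, τ] =
      R ^ k * (dot g e * G g) := fun g => by
    have : dot g e = S g τ - R * S g σ := by
      simp only [he, hS, dot, mul_sub, Finset.sum_sub_distrib, Finset.mul_sum]
      congr 1
      exact Finset.sum_congr rfl fun i _ => by ring
    rw [this]
    simp only [tangObs, hG, hp, hS, hR, Matrix.cons_val_zero, Matrix.cons_val_one]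
    ring
  simp only [hL]
  rw [integral_const_mul, h, ← integral_const_mul]
  refine integral_congr_ae (ae_of_all _ fun g => ?_)
  have hes : ∑ i, e i * Sphere.unitVec σ i = 0 := by
    have h1 : ∑ i, e i * Sphere.unitVec σ i = Sphere.overlap τ σ - R * Sphere.overlap σ σ := by
      simp only [he, sub_mul, Finset.sum_sub_distrib, mul_assoc, ← Finset.mul_sum]; rfl
    rw [h1, overlap_self_eq hN, hR, mul_one, Sphere.overlap, Sphere.overlap, dot, dot, sub_eq_zero]
    exact Finset.sum_congr rfl fun i _ => mul_comm _ _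
  have hev : ∀ ρ, ∑ i, e i * Sphere.unitVec ρ i = Sphere.overlap τ ρ - R * Sphere.overlap σ ρ := fun ρ => by
    simp only [he, sub_mul, Finset.sum_sub_distrib, mul_assoc, ← Finset.mul_sum]; rfl
  have hsum : ∑ i, e i * G' i g = p g σ * p g τ * (deriv f (S g σ) *
      (deriv f (S g τ) * (1 - R ^ 2) -
        2 * ∑ ρ, p g ρ * (deriv f (S g ρ) * (Sphere.overlap τ ρ - R * Sphere.overlap σ ρ)))) := by
    have h1 : ∀ i, e i * G' i g = p g σ * p g τ *
        ((deriv f (S g σ) * deriv f (S g σ) + deriv (deriv f) (S g σ)) * (e i * Sphere.unitVec σ i) +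
          deriv f (S g σ) * deriv f (S g τ) * (e i * Sphere.unitVec τ i) -
          2 * deriv f (S g σ) * (e i * M g i)) := fun i => by rw [hG']; ring
    have h2 : ∑ i, e i * M g i =
        ∑ ρ, p g ρ * (deriv f (S g ρ) * (Sphere.overlap τ ρ - R * Sphere.overlap σ ρ)) := by
      simp only [hM, Finset.mul_sum]
      rw [Finset.sum_comm]
      refine Finset.sum_congr rfl fun ρ _ => ?_
      rw [← hev ρ, Finset.mul_sum, Finset.mul_sum]
      exact Finset.sum_congr rfl fun i _ => by ring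
    have h3 : ∑ i, e i * Sphere.unitVec τ i = 1 - R ^ 2 := by
      rw [hev τ, overlap_self_eq hN, ← hR]; ring
    simp only [h1, ← Finset.mul_sum, Finset.sum_add_distrib, Finset.sum_sub_distrib, hes, h2, h3]
    ring
  show R ^ k * _ = _
  rw [hsum]
  have h3 : ∑ ρ, tiltW E f g σ * tiltW E f g τ * tiltW E f g ρ * obsThree f k g ![σ, τ, ρ] =
      R ^ k * (p g σ * p g τ * deriv f (S g σ)) *
        ∑ ρ, p g ρ * (deriv f (S g ρ) * (Sphere.overlap τ ρ - R * Sphere.overlap σ ρ)) := by
    rw [Finset.mul_sum]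
    refine Finset.sum_congr rfl fun ρ _ => ?_
    simp only [obsThree, tripleFun, Sphere.overlaps, hp, hS, hR, Matrix.cons_val_zero,
      Matrix.cons_val_one, Matrix.cons_val]
    ring
  dsimp only
  rw [h3]
  simp only [obsTwo, pairFun, Sphere.overlaps, hp, hS, hR, Matrix.cons_val_zero, Matrix.cons_val_one]
  ring

/-- The pattern mean is the bracket. -/
theorem tangMean_eq (hf : Smooth f A) (hN : 0 < N) (k : ℕ) (E : Conf P → ℝ) :
    tangMean f k E = (∫ g, rep 2 (addPat f E g) (obsTwo f k g) ∂gam (Fin N)) -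
      2 * ∫ g, rep 3 (addPat f E g) (obsThree f k g) ∂gam (Fin N) := by
  have hfc := hf.continuous
  have hpm := fun σ : Conf P => measurable_tiltW hfc E σ
  have hp : ∀ g (σ : Conf P), |tiltW E f g σ| ≤ 1 := fun g σ => by
    rw [abs_of_nonneg (tiltW_nonneg E g σ)]; exact tiltW_le_one E g σ
  have hpp : ∀ g (σ τ : Conf P), |tiltW E f g σ * tiltW E f g τ| ≤ 1 := fun g σ τ => by
    rw [abs_mul]; exact mul_le_one₀ (hp g σ) (abs_nonneg _) (hp g τ)
  have i1 : ∀ σ τ : Conf P, Integrable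
      (fun g => tiltW E f g σ * tiltW E f g τ * tangObs f k g ![σ, τ]) (gam (Fin N)) := fun σ τ =>
    (integrable_coordAbs.const_mul (2 * A)).mono'
      (((hpm σ).mul (hpm τ)).mul (measurable_tangObs hf k _)).aestronglyMeasurable
      (ae_of_all _ fun g => by
        rw [Real.norm_eq_abs, abs_mul]
        exact (mul_le_of_le_one_left (abs_nonneg _) (hpp g σ τ)).trans (abs_tangObs_le hf k g _))
  have i2 : ∀ σ τ : Conf P, Integrable
      (fun g => tiltW E f g σ * tiltW E f g τ * obsTwo f k g ![σ, τ]) (gam (Fin N)) := fun σ τ =>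
    integrable_of_abs_le (((hpm σ).mul (hpm τ)).mul (measurable_obsTwo hf k _)) (K := 2 * (A * A))
      fun g => by
        show |tiltW E f g σ * tiltW E f g τ * _| ≤ _
        rw [abs_mul]
        exact (mul_le_of_le_one_left (abs_nonneg _) (hpp g σ τ)).trans (abs_obsTwo_le hf k g _)
  have i3 : ∀ σ τ ρ : Conf P, Integrable (fun g => tiltW E f g σ * tiltW E f g τ *
      tiltW E f g ρ * obsThree f k g ![σ, τ, ρ]) (gam (Fin N)) := fun σ τ ρ =>
    integrable_of_abs_le ((((hpm σ).mul (hpm τ)).mul (hpm ρ)).mul (measurable_obsThree hf k _))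
      (K := 2 * (A * A)) fun g => by
        show |tiltW E f g σ * tiltW E f g τ * tiltW E f g ρ * _| ≤ _
        rw [abs_mul, abs_mul]
        exact (mul_le_of_le_one_left (abs_nonneg _)
          (mul_le_one₀ (hpp g σ τ) (abs_nonneg _) (hp g ρ))).trans (abs_obsThree_le hf k g _)
  have j3 := fun σ τ : Conf P =>
    (integrable_finsetSum (Finset.univ : Finset (Conf P)) fun ρ _ => i3 σ τ ρ).const_mul (2 : ℝ)
  simp only [tangMean, rep_two, rep_three, gib_addPat]
  rw [integral_finsetSum _ fun σ _ => integrable_finsetSum _ fun τ _ => i1 σ τ,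
    integral_finsetSum _ fun σ _ => integrable_finsetSum _ fun τ _ => i2 σ τ,
    integral_finsetSum _ fun σ _ => integrable_finsetSum _ fun τ _ =>
      integrable_finsetSum _ fun ρ _ => i3 σ τ ρ, Finset.mul_sum, ← Finset.sum_sub_distrib]
  refine Finset.sum_congr rfl fun σ _ => ?_
  rw [integral_finsetSum _ fun τ _ => i1 σ τ, integral_finsetSum _ fun τ _ => i2 σ τ,
    integral_finsetSum _ fun τ _ => integrable_finsetSum _ fun ρ _ => i3 σ τ ρ, Finset.mul_sum,
    ← Finset.sum_sub_distrib]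
  refine Finset.sum_congr rfl fun τ _ => ?_
  rw [pair_ibp hf hN, integral_sub (i2 σ τ) (j3 σ τ), integral_const_mul]

lemma abs_tangMean_le (hf : Smooth f A) (hN : 0 < N) (k : ℕ) (E : Conf P → ℝ) :
    |tangMean f k E| ≤ 6 * (A * A) := by
  rw [tangMean_eq hf hN]
  have h1 : |∫ g, rep 2 (addPat f E g) (obsTwo f k g) ∂gam (Fin N)| ≤ 2 * (A * A) :=
    Vale.Agent.P157.Parisi.Site.abs_integral_le fun g => abs_rep_le _ (abs_obsTwo_le hf k g)
  have h2 : |∫ g, rep 3 (addPat f E g) (obsThree f k g) ∂gam (Fin N)| ≤ 2 * (A * A) :=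
    Vale.Agent.P157.Parisi.Site.abs_integral_le fun g => abs_rep_le _ (abs_obsThree_le hf k g)
  refine (abs_sub _ _).trans ?_
  rw [abs_mul, abs_two]
  linarith

end Vale.Agent.P157.Parisi.Full.Spherical.PatParts
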